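import Vale.Agent.P224.R2.H166.Upto16

namespace Vale.Agent.Results.P224.LVc_Upto16

open scoped Manifold ContDiff RealInnerProductSpace
open MeasureTheory Module Vale.Agent.P224

theorem result {V W M : Type*}
    [NormedAddCommGroup V] [InnerProductSpace ℝ V] [FiniteDimensional ℝ V]
    [MeasurableSpace V] [BorelSpace V]
    [NormedAddCommGroup W] [InnerProductSpace ℝ W] [FiniteDimensional ℝ W]
    (hV : 2 ≤ finrank ℝ V) (hV16 : finrank ℝ V ≤ 16) (hW : finrank ℝ W = finrank ℝ V + 2)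
    [TopologicalSpace M] [T2Space M] [CompactSpace M] [ConnectedSpace M]
    [ChartedSpace V M] [IsManifold 𝓘(ℝ, V) ∞ M] [MeasurableSpace M] [BorelSpace M]
    (F : M → W) (hF : ContMDiff 𝓘(ℝ, V) 𝓘(ℝ, W) ∞ F) (hS : ∀ x, ‖F x‖ = 1)
    (himm : ∀ x, Function.Injective (mfderiv 𝓘(ℝ, V) 𝓘(ℝ, W) F x))
    (hmin : ∀ x n, IsUnitNormal V F x n → meanCurv V F x n = 0)
    (hng : ¬ ∃ a : W, a ≠ 0 ∧ ∀ x, ⟪F x, a⟫ = 0) :
    ENNReal.ofReal (leastClifford (finrank ℝ V)) ≤ volM V F Set.univ ∧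
    (3 ≤ finrank ℝ V →
      (volM V F Set.univ = ENNReal.ofReal (leastClifford (finrank ℝ V)) ↔
        Function.Injective F ∧ ∃ U : Submodule ℝ W, finrank ℝ U = finrank ℝ V / 2 + 1 ∧
          Set.range F =
            {z | ‖U.starProjection z‖ ^ 2 = ((finrank ℝ V / 2 : ℕ) : ℝ) / finrank ℝ V ∧
              ‖z - U.starProjection z‖ ^ 2 =
                ((finrank ℝ V - finrank ℝ V / 2 : ℕ) : ℝ) / finrank ℝ V})) := by
  have hFs : SphImm V F := ⟨hF, hS, himm⟩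
  borelize W
  exact ⟨R2.H166.upto16 hV hV16 hW hFs hmin hng,
    fun h3 => (R2.H166.sharp16 h3 hV16 hW hFs hmin hng).2⟩

end Vale.Agent.Results.P224.LVc_Upto16
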